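import Vale.Agent.P011.E6O.H408.Vs3

/-!
The action on the opposite point has determinant one.
-/

open Matrix

set_option linter.unusedSimpArgs false

namespace Vale.Agent.P011.E6O.H408

open Vale.Agent.P011.MPQ Vale.Agent.P011.D4 Vale.Agent.P011.D4.Oct Vale.Agent.P011.E6
open Vale.Agent.P011.E6.Alb
open Vale.Agent.P011.E6I (MQ toMQ)

variable {k E : Type} [Field k] [Field E] [Algebra k E]
  {ρ σ : E ≃ₐ[k] E} {lam : Eˣ} {g : Fin 3 → Eˣ} {a b c : kˣ} {al : E}
  {φ : AlbL E a b c ≃ₗ[E] AlbL E a b c}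

/-- The elements of degree zero. -/
def Zt (al : E) (X : Matrix (Fin 3) (Fin 3) E) : AlbL E a b c :=
  ⟨X 0 0, X 1 1, X 2 2, ⟨qe al (X 2 1) (X 1 2), 0⟩, ⟨qe al (X 0 2) (X 2 0), 0⟩,
    ⟨qe al (X 1 0) (X 0 1), 0⟩⟩

theorem Zt_add (X Y : Matrix (Fin 3) (Fin 3) E) :
    (Zt al (X + Y) : AlbL E a b c) = Zt al X + Zt al Y := by
  apply Alb.ext
  · rfl
  · rfl
  · rfl
  all_goals
    ext1
    · exact (qe_add _ _ _ _).symm
    · exact (add_zero _).symm

theorem Zt_smul (t : E) (X : Matrix (Fin 3) (Fin 3) E) :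
    (Zt al (t • X) : AlbL E a b c) = t • Zt al X := by
  apply Alb.ext
  · rfl
  · rfl
  · rfl
  all_goals
    ext1
    · exact (qe_smul _ _ _).symm
    · exact (smul_zero _).symm

/-- The elements of degree zero, as a linear map. -/
def ZtL (a b c : kˣ) (al : E) : Matrix (Fin 3) (Fin 3) E →ₗ[E] AlbL E a b c where
  toFun := Zt al
  map_add' := Zt_add
  map_smul' := Zt_smul

variable [NeZero (2 : E)]

theorem cub_Zt (hal : al ^ 2 = algebraMap k E a) (X : Matrix (Fin 3) (Fin 3) E) :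
    cub (Zt al X : AlbL E a b c) = X.det := by
  have h2 : (2 : E) ≠ 0 := two_ne_zero
  have e0 : ∀ u v : E, (qe al u v : Qt (up E a) (up E b)).re = (u + v) / 2 := fun _ _ => rfl
  have hn : ∀ q : Qt (up E a) (up E b), Oct.norm (⟨q, 0⟩ : OctL E a b c) = nrd q := by
    intro q
    simp [Oct.norm, nrd]
  have hb : ∀ q : Qt (up E a) (up E b), bil (⟨q, 0⟩ : OctL E a b c) 1 = 2 * q.re := by
    intro q
    rw [bil_eq]
    simp
  have hm : ∀ p q : Qt (up E a) (up E b),
      (⟨p, 0⟩ * ⟨q, 0⟩ : OctL E a b c) = ⟨p * q, 0⟩ := by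
    intro p q
    ext1 <;> simp
  simp only [Alb.cub, Zt, hn, hm, hb, qe_mul hal, e0, nrd_qe hal]
  rw [Matrix.det_fin_three]
  field_simp
  ring

theorem xp_mul_xm (hal : al ^ 2 = algebraMap k E a) :
    (xp al * xm al : OctL E a b c) = algebraMap k E c • ⟨qe al 1 0, 0⟩ := by
  ext1
  · simp only [xp, xm, fst_mul, ep_eq, em_eq, qe_star, qe_mul hal, fst_smul, zero_mul, zero_add,
      mul_one, mul_zero, one_mul]
    rfl
  · simp only [xp, xm, snd_mul, zero_mul, mul_zero, star_zero, add_zero, snd_smul, smul_zero]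

theorem xm_mul_xp (hal : al ^ 2 = algebraMap k E a) :
    (xm al * xp al : OctL E a b c) = algebraMap k E c • ⟨qe al 0 1, 0⟩ := by
  ext1
  · simp only [xp, xm, fst_mul, ep_eq, em_eq, qe_star, qe_mul hal, fst_smul, zero_mul, zero_add,
      mul_one, mul_zero, one_mul]
    rfl
  · simp only [xp, xm, snd_mul, zero_mul, mul_zero, star_zero, add_zero, snd_smul, smul_zero]

theorem bil_xp_xm (hal : al ^ 2 = algebraMap k E a) :
    bil (xp al : OctL E a b c) (xm al) = -algebraMap k E c := by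
  obtain ⟨e1, e2, e3, e4⟩ := co_ep (a := a) (b := b) hal
  obtain ⟨f1, f2, f3, f4⟩ := co_em (a := a) (b := b) hal
  rw [bil_co (show al ^ 2 = (up E a : Eˣ) from hal)]
  simp only [xp, xm, e1, e2, e3, e4, f1, f2, f3, f4, ca_zero, cb_zero, cg_zero, cd_zero]
  change _ = -((up E c : Eˣ) : E)
  ring

theorem cross_pm (hal : al ^ 2 = algebraMap k E a) (r s : Fin 3 → E) :
    cross (pt (xp al) r) (pt (xm al) s) =
      algebraMap k E c • (Zt al (Matrix.vecMulVec r s) : AlbL E a b c) := by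
  have hx : ∀ u v : E, star (u • (xp al * xm al : OctL E a b c) + v • (xm al * xp al)) =
      algebraMap k E c • ⟨qe al v u, 0⟩ := by
    intro u v
    rw [xp_mul_xm hal, xm_mul_xp hal]
    ext1
    · change star (u • (algebraMap k E c • qe al 1 0) + v • (algebraMap k E c • qe al 0 1)) =
        algebraMap k E c • qe al v u
      simp only [qe_smul, qe_add, qe_star, mul_one, mul_zero, add_zero, zero_add]
      rw [mul_comm u, mul_comm v]
    · change -(u • (algebraMap k E c • (0 : Qt (up E a) (up E b))) +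
        v • (algebraMap k E c • 0)) = algebraMap k E c • 0
      simp only [smul_zero, add_zero, neg_zero]
  apply Alb.ext
  · simp only [cross, pt, mul_zero, zero_mul, add_zero, zero_sub, bil_smul_left, bil_smul_right,
      bil_xp_xm hal, d1_smul, Zt, vecMulVec_apply]
    ring
  · simp only [cross, pt, mul_zero, zero_mul, add_zero, zero_sub, bil_smul_left, bil_smul_right,
      bil_xp_xm hal, d2_smul, Zt, vecMulVec_apply]
    ring
  · simp only [cross, pt, mul_zero, zero_mul, add_zero, zero_sub, bil_smul_left, bil_smul_right,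
      bil_xp_xm hal, d3_smul, Zt, vecMulVec_apply]
    ring
  · simp only [cross, pt, zero_smul, add_zero, sub_zero, smul_mul_oct, mul_smul_oct, smul_smul,
      hx, x1_smul, Zt, vecMulVec_apply, zero_mul]
    rw [mul_comm (s 2) (r 1)]
  · simp only [cross, pt, zero_smul, add_zero, sub_zero, smul_mul_oct, mul_smul_oct, smul_smul,
      hx, x2_smul, Zt, vecMulVec_apply, zero_mul]
    rw [mul_comm (s 0) (r 2)]
  · simp only [cross, pt, zero_smul, add_zero, sub_zero, smul_mul_oct, mul_smul_oct, smul_smul,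
      hx, x3_smul, Zt, vecMulVec_apply, zero_mul]
    rw [mul_comm (s 1) (r 0)]

omit [NeZero (2 : E)] in
theorem amap_wt_Zt (hσ : σ al = -al) (X : Matrix (Fin 3) (Fin 3) E) :
    amap σ (wt g⁻¹ (Zt al X : AlbL E a b c)) =
      Zt al (Matrix.of fun i j => σ ((g i : E)⁻¹ * (g j : E)⁻¹ * X j i)) := by
  apply Alb.ext
  · simp only [amap, wt, Zt, Matrix.of_apply, Pi.inv_apply, Units.val_inv_eq_inv_val]
    rw [pow_two]
  · simp only [amap, wt, Zt, Matrix.of_apply, Pi.inv_apply, Units.val_inv_eq_inv_val]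
    rw [pow_two]
  · simp only [amap, wt, Zt, Matrix.of_apply, Pi.inv_apply, Units.val_inv_eq_inv_val]
    rw [pow_two]
  · simp only [amap, wt, Zt, Matrix.of_apply, Pi.inv_apply, Units.val_inv_eq_inv_val, omap,
      fst_smul, snd_smul, smul_zero, qe_smul, qe_σ hσ, qmap_zero]
    rw [mul_comm (g 2 : E)⁻¹ (g 1 : E)⁻¹]
  · simp only [amap, wt, Zt, Matrix.of_apply, Pi.inv_apply, Units.val_inv_eq_inv_val, omap,
      fst_smul, snd_smul, smul_zero, qe_smul, qe_σ hσ, qmap_zero]
    rw [mul_comm (g 2 : E)⁻¹ (g 0 : E)⁻¹]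
  · simp only [amap, wt, Zt, Matrix.of_apply, Pi.inv_apply, Units.val_inv_eq_inv_val, omap,
      fst_smul, snd_smul, smul_zero, qe_smul, qe_σ hσ, qmap_zero]
    rw [mul_comm (g 1 : E)⁻¹ (g 0 : E)⁻¹]

theorem sp_pm (hal : al ^ 2 = algebraMap k E a) (hσ : σ al = -al) (r s : Fin 3 → E) :
    sp σ g (pt (xp al) r) (pt (xm al) s) = algebraMap k E c • (Zt al
      (Matrix.of fun i j => σ ((g i : E)⁻¹ * (g j : E)⁻¹ * (r j * s i))) : AlbL E a b c) := by
  rw [sp, cross_pm hal, wt_smul, amap_smul, amap_wt_Zt hσ, σ.commutes]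
  rfl

/-- The twist of the matrix. -/
def Dw (σ : E ≃ₐ[k] E) (g : Fin 3 → Eˣ) (D : Matrix (Fin 3) (Fin 3) E) :
    Matrix (Fin 3) (Fin 3) E := Matrix.of fun i j => σ ((g i : E) * D i j * (g j : E)⁻¹)

omit [NeZero (2 : E)] in
theorem det_Dw (D : Matrix (Fin 3) (Fin 3) E) : (Dw σ g D).det = σ D.det := by
  have h0 := (g 0).ne_zero
  have h1 := (g 1).ne_zero
  have h2 := (g 2).ne_zero
  have e : Dw σ g D = (Matrix.diagonal (fun i => (g i : E)) * D *
      Matrix.diagonal (fun i => (g i : E)⁻¹)).map σ := by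
    ext1 i j
    rw [Matrix.map_apply, Matrix.mul_diagonal, Matrix.diagonal_mul]
    rfl
  have e2 : ((Matrix.diagonal (fun i => (g i : E)) * D *
      Matrix.diagonal (fun i => (g i : E)⁻¹)).map σ).det = σ ((Matrix.diagonal
        (fun i => (g i : E)) * D * Matrix.diagonal (fun i => (g i : E)⁻¹)).det) := by
    rw [AlgEquiv.map_det]
    rfl
  rw [e, e2, Matrix.det_mul, Matrix.det_mul, Matrix.det_diagonal, Matrix.det_diagonal]
  congr 1
  simp only [Fin.prod_univ_three]
  field_simp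

/-- The action on the elements of degree zero. -/
theorem map_Zt (hal : al ^ 2 = algebraMap k E a) (hσ : σ al = -al) (hσ2 : ∀ x, σ (σ x) = x)
    (h1 : ∀ x, cub (φ x) = cub x) (h3 : ∀ x y, her σ g (φ x) (φ y) = her σ g x y)
    (hfix : ∀ r, φ (pt (xp al) r) = pt (xp al) r) {D : Matrix (Fin 3) (Fin 3) E}
    (hD : ∀ r, φ (pt (xm al) r) = pt (xm al) (r ᵥ* D)) (X : Matrix (Fin 3) (Fin 3) E) :
    φ (Zt al X) = Zt al ((Dw σ g D)ᵀ * X) := by
  have hc : algebraMap k E c ≠ 0 := by
    rw [map_ne_zero]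
    exact c.ne_zero
  let f1 : Matrix (Fin 3) (Fin 3) E →ₗ[E] AlbL E a b c :=
    (φ : AlbL E a b c →ₗ[E] AlbL E a b c) ∘ₗ ZtL a b c al
  let f2 : Matrix (Fin 3) (Fin 3) E →ₗ[E] AlbL E a b c :=
    ZtL a b c al ∘ₗ LinearMap.mulLeft E ((Dw σ g D)ᵀ)
  have key : f1 = f2 := by
    apply Matrix.ext_linearMap
    intro i j
    apply LinearMap.ext_ring
    change φ (Zt al (Matrix.single i j 1)) = Zt al ((Dw σ g D)ᵀ * Matrix.single i j 1)
    have h := map_sp (σ := σ) (g := g) hσ2 h1 h3 (pt (xp al) (Pi.single j (g j : E)))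
      (pt (xm al) (Pi.single i (g i : E)))
    rw [hfix, hD, sp_pm hal hσ, sp_pm hal hσ, map_smul] at h
    have h4 := smul_right_injective (AlbL E a b c) hc h
    have e1 : (Matrix.of fun i' j' => σ ((g i' : E)⁻¹ * (g j' : E)⁻¹ *
        ((Pi.single j (g j : E) : Fin 3 → E) j' * (Pi.single i (g i : E) : Fin 3 → E) i'))) =
        Matrix.single i j (1 : E) := by
      ext1 i' j'
      rw [Matrix.of_apply, Matrix.single_apply]
      by_cases hi : i = i'
      · subst hi
        by_cases hj : j = j'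
        · subst hj
          have hg1 := (g i).ne_zero
          have hg2 := (g j).ne_zero
          rw [Pi.single_eq_same, Pi.single_eq_same, if_pos ⟨rfl, rfl⟩, ← map_one σ]
          congr 1
          field_simp
        · rw [Pi.single_eq_of_ne (Ne.symm hj), if_neg (fun h => hj h.2), zero_mul, mul_zero,
            map_zero]
      · rw [Pi.single_eq_of_ne (Ne.symm hi), if_neg (fun h => hi h.1), mul_zero, mul_zero,
          map_zero]
    have e2 : (Matrix.of fun i' j' => σ ((g i' : E)⁻¹ * (g j' : E)⁻¹ *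
        ((Pi.single j (g j : E) : Fin 3 → E) j' *
          ((Pi.single i (g i : E) : Fin 3 → E) ᵥ* D) i'))) =
        (Dw σ g D)ᵀ * Matrix.single i j (1 : E) := by
      ext1 i' j'
      rw [Matrix.of_apply, Matrix.single_vecMul]
      by_cases hj : j = j'
      · subst hj
        have hg1 := (g i').ne_zero
        have hg2 := (g j).ne_zero
        rw [Matrix.mul_single_apply_same, Pi.single_eq_same, mul_one, Matrix.transpose_apply, Dw,
          Matrix.of_apply]
        congr 1
        simp only [Pi.smul_apply, Matrix.row_apply, smul_eq_mul]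
        field_simp
      · rw [Matrix.mul_single_apply_of_ne _ _ _ _ _ (Ne.symm hj), Pi.single_eq_of_ne (Ne.symm hj),
          zero_mul, mul_zero, map_zero]
    rw [← e1, h4, e1, e2]
  exact LinearMap.congr_fun key X

end Vale.Agent.P011.E6O.H408
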