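import Vale.Agent.P011.E6O.H408.Sp
import Vale.Agent.P011.E6.H64.Glue

/-!
The matrices `z e₊ + t e₋`.
-/

open Matrix

namespace Vale.Agent.P011.E6O.H408

open Vale.Agent.P011.MPQ Vale.Agent.P011.D4 Vale.Agent.P011.D4.Oct Vale.Agent.P011.E6
open Vale.Agent.P011.E6.Alb
open Vale.Agent.P011.E6I (MQ toMQ)

variable {k E : Type} [Field k] [Field E] [Algebra k E]
  {ρ σ : E ≃ₐ[k] E} {lam : Eˣ} {g : Fin 3 → Eˣ} {a b c : kˣ} {al : E}

/-- The quaternion `u e₊ + v e₋`. -/
def qe (al u v : E) : Qt (up E a) (up E b) := ⟨(u + v) / 2, (u - v) / (2 * al), 0, 0⟩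

theorem ep_eq : (ep al : Qt (up E a) (up E b)) = qe al 1 0 := by
  apply QuaternionAlgebra.ext <;> simp [ep, qe]

theorem em_eq : (em al : Qt (up E a) (up E b)) = qe al 0 1 := by
  apply QuaternionAlgebra.ext <;> simp [em, qe, neg_div]

variable [NeZero (2 : E)]

omit [NeZero (2 : E)] in
theorem al_ne (hal : al ^ 2 = algebraMap k E a) : al ≠ 0 := by
  rintro rfl
  have h : algebraMap k E a ≠ 0 := by
    rw [map_ne_zero]
    exact a.ne_zero
  apply h
  rw [← hal]
  ring

theorem qe_mul (hal : al ^ 2 = algebraMap k E a) (u v u' v' : E) :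
    (qe al u v * qe al u' v' : Qt (up E a) (up E b)) = qe al (u * u') (v * v') := by
  have h0 := al_ne hal
  have h2 : (2 : E) ≠ 0 := two_ne_zero
  have hup : ((up E a : Eˣ) : E) = al ^ 2 := by rw [hal]; rfl
  apply QuaternionAlgebra.ext
  · simp only [qe, QuaternionAlgebra.re_mul, hup]
    field_simp
    ring
  · simp only [qe, QuaternionAlgebra.imI_mul]
    field_simp
    ring
  · rw [QuaternionAlgebra.imJ_mul]
    simp [qe]
  · rw [QuaternionAlgebra.imK_mul]
    simp [qe]

omit [NeZero (2 : E)] in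
theorem qe_add (u v u' v' : E) :
    (qe al u v + qe al u' v' : Qt (up E a) (up E b)) = qe al (u + u') (v + v') := by
  apply QuaternionAlgebra.ext
  · simp only [qe, QuaternionAlgebra.re_add]
    ring
  · simp only [qe, QuaternionAlgebra.imI_add]
    ring
  · rw [QuaternionAlgebra.imJ_add]
    simp [qe]
  · rw [QuaternionAlgebra.imK_add]
    simp [qe]

omit [NeZero (2 : E)] in
theorem qe_smul (t u v : E) :
    (t • qe al u v : Qt (up E a) (up E b)) = qe al (t * u) (t * v) := by
  apply QuaternionAlgebra.ext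
  · simp only [qe, QuaternionAlgebra.re_smul, smul_eq_mul]
    ring
  · simp only [qe, QuaternionAlgebra.imI_smul, smul_eq_mul]
    ring
  · rw [QuaternionAlgebra.imJ_smul]
    simp [qe]
  · rw [QuaternionAlgebra.imK_smul]
    simp [qe]

omit [NeZero (2 : E)] in
theorem qe_star (u v : E) : star (qe al u v : Qt (up E a) (up E b)) = qe al v u := by
  apply QuaternionAlgebra.ext
  · rw [QuaternionAlgebra.re_star]
    simp [qe, add_comm]
  · simp only [qe, QuaternionAlgebra.imI_star]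
    ring
  · rw [QuaternionAlgebra.imJ_star]
    simp [qe]
  · rw [QuaternionAlgebra.imK_star]
    simp [qe]

theorem qe_self (u : E) : (qe al u u : Qt (up E a) (up E b)) = algebraMap E _ u := by
  have h2 : (2 : E) ≠ 0 := two_ne_zero
  apply QuaternionAlgebra.ext
  · change (u + u) / 2 = u
    field_simp
    ring
  · change (u - u) / (2 * al) = 0
    rw [sub_self, zero_div]
  · rfl
  · rfl

omit [NeZero (2 : E)] in
theorem qe_ρ (h : ρ al = al) (u v : E) :
    qmap ρ (qe al u v : Qt (up E a) (up E b)) = qe al (ρ u) (ρ v) := by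
  apply QuaternionAlgebra.ext
  · rw [re_qmap]
    simp [qe, map_ofNat]
  · rw [imI_qmap]
    simp [qe, h, map_ofNat]
  · rw [imJ_qmap]
    simp [qe]
  · rw [imK_qmap]
    simp [qe]

omit [NeZero (2 : E)] in
theorem qe_σ (h : σ al = -al) (u v : E) :
    qmap σ (qe al u v : Qt (up E a) (up E b)) = qe al (σ v) (σ u) := by
  apply QuaternionAlgebra.ext
  · rw [re_qmap]
    simp [qe, add_comm, map_ofNat]
  · simp only [imI_qmap, qe, map_div₀, map_sub, map_mul, map_ofNat, h]
    rw [mul_neg, div_neg, ← neg_div]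
    congr 1
    ring
  · rw [imJ_qmap]
    simp [qe]
  · rw [imK_qmap]
    simp [qe]

theorem nrd_qe (hal : al ^ 2 = algebraMap k E a) (u v : E) :
    nrd (qe al u v : Qt (up E a) (up E b)) = u * v := by
  have h0 := al_ne hal
  have h2 : (2 : E) ≠ 0 := two_ne_zero
  have hup : ((up E a : Eˣ) : E) = al ^ 2 := by rw [hal]; rfl
  simp only [nrd, qe, hup]
  field_simp
  ring

/-- The matrix `z e₊ + t e₋`. -/
def mq (al : E) (z t : Matrix (Fin 3) (Fin 3) E) : MQ E a b := Matrix.of fun i j => qe al (z i j) (t i j)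

omit [NeZero (2 : E)] in
theorem mq_apply (z t : Matrix (Fin 3) (Fin 3) E) (i j : Fin 3) :
    (mq al z t : MQ E a b) i j = qe al (z i j) (t i j) := rfl

theorem mq_mul (hal : al ^ 2 = algebraMap k E a) (z t z' t' : Matrix (Fin 3) (Fin 3) E) :
    (mq al z t * mq al z' t' : MQ E a b) = mq al (z * z') (t * t') := by
  ext1 i j
  rw [Matrix.mul_apply, mq_apply]
  simp only [mq_apply, Fin.sum_univ_three, qe_mul hal, qe_add, Matrix.mul_apply]

theorem mq_self (z : Matrix (Fin 3) (Fin 3) E) : (mq al z z : MQ E a b) = toMQ z := by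
  ext1 i j
  rw [mq_apply, qe_self]
  rfl

theorem mq_one : (mq al 1 1 : MQ E a b) = 1 := by
  rw [mq_self]
  ext1 i j
  simp only [toMQ, Matrix.map_apply, Matrix.one_apply]
  split
  · exact map_one _
  · exact map_zero _

theorem mq_eq (hal : al ^ 2 = algebraMap k E a) (z t : Matrix (Fin 3) (Fin 3) E) :
    (toMQ z * Matrix.diagonal (fun _ => ep al) + toMQ t * Matrix.diagonal (fun _ => em al) :
      MQ E a b) = mq al z t := by
  ext1 i j
  rw [Matrix.add_apply, Matrix.mul_diagonal, Matrix.mul_diagonal, ← mq_self (al := al) z,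
    ← mq_self (al := al) t, mq_apply, mq_apply, mq_apply, ep_eq, em_eq, qe_mul hal, qe_mul hal,
    qe_add]
  simp

omit [NeZero (2 : E)] in
theorem mq_ρ (h : ρ al = al) (z t : Matrix (Fin 3) (Fin 3) E) :
    (mq al z t : MQ E a b).map (qmap ρ) = mq al (z.map ρ) (t.map ρ) := by
  ext1 i j
  rw [Matrix.map_apply, mq_apply, mq_apply, qe_ρ h]
  rfl

omit [NeZero (2 : E)] in
theorem mq_σ (h : σ al = -al) (z t : Matrix (Fin 3) (Fin 3) E) :
    (mq al z t : MQ E a b).map (qmap σ) = mq al (t.map σ) (z.map σ) := by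
  ext1 i j
  rw [Matrix.map_apply, mq_apply, mq_apply, qe_σ h]
  rfl

omit [NeZero (2 : E)] in
theorem mq_H (z t : Matrix (Fin 3) (Fin 3) E) :
    (mq al z t : MQ E a b)ᴴ = mq al tᵀ zᵀ := by
  ext1 i j
  rw [Matrix.conjTranspose_apply, mq_apply, mq_apply, qe_star]
  rfl

theorem mq_dg : (mq al (Matrix.diagonal fun i => (g i : E)) (Matrix.diagonal fun i => (g i : E)) :
    MQ E a b) = dg (up E a) (up E b) g := by
  rw [mq_self]
  ext1 i j
  simp only [toMQ, dg, Matrix.map_apply, Matrix.diagonal_apply]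
  split
  · rfl
  · exact map_zero _

theorem mq_inD (hal : al ^ 2 = algebraMap k E a) (h : ρ al = al)
    {z t : Matrix (Fin 3) (Fin 3) E} (hz : InD0 ρ lam z) (ht : InD0 ρ lam t) :
    InD ρ lam (mq al z t : MQ E a b) := by
  rw [InD, mq_ρ h, ← mq_self (al := al), mq_mul hal, mq_mul hal]
  rw [InD0] at hz ht
  rw [hz, ht]

theorem mq_isUn (hal : al ^ 2 = algebraMap k E a) (h : σ al = -al)
    {z t : Matrix (Fin 3) (Fin 3) E}
    (hz : (z.map σ).transpose * Matrix.diagonal (fun i => (g i : E)) * z =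
      Matrix.diagonal (fun i => (g i : E)))
    (ht : (t.map σ).transpose * Matrix.diagonal (fun i => (g i : E)) * t =
      Matrix.diagonal (fun i => (g i : E))) :
    IsUn σ g 1 (mq al z t : MQ E a b) := by
  rw [IsUn, one_smul, mq_σ h, mq_H, ← mq_dg (al := al), mq_mul hal, mq_mul hal, hz, ht]

theorem nu_mq (hal : al ^ 2 = algebraMap k E a) (z t : Matrix (Fin 3) (Fin 3) E) :
    nu (mq al z t : MQ E a b) = z.det * t.det := by
  have h2 : (2 : E) ≠ 0 := two_ne_zero
  have key : ∀ X : Matrix (Fin 3) (Fin 3) E,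
      Alb.cub (Alb.ofMV (mq al X Xᵀ : MQ E a b) 0 : Alb (up E a) (up E b) 1) = X.det := by
    intro X
    have e0 : ∀ u v : E, (qe al u v : Qt (up E a) (up E b)).re = (u + v) / 2 := fun _ _ => rfl
    have hn : ∀ q : Qt (up E a) (up E b), Oct.norm (⟨q, 0⟩ : Oct (up E a) (up E b) 1) = nrd q := by
      intro q
      simp [Oct.norm, nrd]
    have hb : ∀ q : Qt (up E a) (up E b), bil (⟨q, 0⟩ : Oct (up E a) (up E b) 1) 1 = 2 * q.re := by
      intro q
      rw [bil_eq]
      simp
    have hm : ∀ p q : Qt (up E a) (up E b),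
        (⟨p, 0⟩ * ⟨q, 0⟩ : Oct (up E a) (up E b) 1) = ⟨p * q, 0⟩ := by
      intro p q
      ext1 <;> simp
    simp only [Alb.cub, Alb.ofMV, mq_apply, Pi.zero_apply, hn, hm, hb, qe_mul hal, e0, nrd_qe hal,
      Matrix.transpose_apply]
    rw [Matrix.det_fin_three]
    field_simp
    ring
  rw [nu, mq_H, mq_mul hal]
  have h1 : t * zᵀ = (z * tᵀ)ᵀ := by rw [Matrix.transpose_mul, Matrix.transpose_transpose]
  rw [h1, key, Matrix.det_mul, Matrix.det_transpose]

/-- The elements of `SU₂` attached to two unitary elements of `D`. -/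
theorem exists_m (hal : al ^ 2 = algebraMap k E a) (hρ : ρ al = al) (hσ : σ al = -al)
    {z t : Matrix (Fin 3) (Fin 3) E} (hz : InD0 ρ lam z) (ht : InD0 ρ lam t)
    (hzu : (z.map σ).transpose * Matrix.diagonal (fun i => (g i : E)) * z =
      Matrix.diagonal (fun i => (g i : E)))
    (htu : (t.map σ).transpose * Matrix.diagonal (fun i => (g i : E)) * t =
      Matrix.diagonal (fun i => (g i : E))) (hd : z.det * t.det = 1) :
    ∃ m : (MQ E a b)ˣ, (m : MQ E a b) = (toMQ z * Matrix.diagonal (fun _ => ep al) +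
        toMQ t * Matrix.diagonal (fun _ => em al)) ∧
      ((m⁻¹ : (MQ E a b)ˣ) : MQ E a b) = mq al z⁻¹ t⁻¹ ∧
      InD ρ lam (m : MQ E a b) ∧ IsUn σ g 1 (m : MQ E a b) ∧ nu (m : MQ E a b) = 1 := by
  have hz0 : IsUnit z.det := IsUnit.of_mul_eq_one _ hd
  have ht0 : IsUnit t.det := IsUnit.of_mul_eq_one _ (by rw [mul_comm]; exact hd)
  let m : (MQ E a b)ˣ :=
    { val := mq al z t
      inv := mq al z⁻¹ t⁻¹
      val_inv := by rw [mq_mul hal, Matrix.mul_nonsing_inv _ hz0, Matrix.mul_nonsing_inv _ ht0,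
        mq_one]
      inv_val := by rw [mq_mul hal, Matrix.nonsing_inv_mul _ hz0, Matrix.nonsing_inv_mul _ ht0,
        mq_one] }
  refine ⟨m, (mq_eq hal z t).symm, rfl, mq_inD hal hρ hz ht, mq_isUn hal hσ hzu htu, ?_⟩
  change nu (mq al z t : MQ E a b) = 1
  rw [nu_mq hal, hd]

end Vale.Agent.P011.E6O.H408
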