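import Vale.Agent.P011.E6O.H408.Dt

/-!
The stabilizer of a standard point: matrices in `D` and unitarity.
-/

open Matrix

set_option linter.unusedSimpArgs false

namespace Vale.Agent.P011.E6O.H408

open Vale.Agent.P011.MPQ Vale.Agent.P011.D4 Vale.Agent.P011.D4.Oct Vale.Agent.P011.E6
open Vale.Agent.P011.E6.Alb
open Vale.Agent.P011.E6I (MQ toMQ)

variable {k E : Type} [Field k] [Field E] [Algebra k E]
  {ρ σ : E ≃ₐ[k] E} {lam : Eˣ} {g : Fin 3 → Eˣ} {a b c : kˣ} {al : E}
  {φ : AlbL E a b c ≃ₗ[E] AlbL E a b c}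

theorem ph_pt {x : OctL E a b c} (hx : omap ρ x = x) (r : Fin 3 → E) :
    ph ρ lam (pt x r) = pt x ![(lam : E) * ρ (r 2), ρ (r 0), ρ (r 1)] := by
  apply Alb.ext
  · simp [ph, pt]
  · simp [ph, pt]
  · simp [ph, pt]
  · simp only [ph, pt, omap_smul, hx, smul_smul, Matrix.cons_val_zero]
  · simp only [ph, pt, omap_smul, hx, Matrix.cons_val_one, Matrix.cons_val_zero]
  · simp only [ph, pt, omap_smul, hx, Matrix.cons_val]

/-- The matrix of a map which commutes with `ph` belongs to `D`. -/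
theorem inD0_of (hρ3 : ∀ x, ρ (ρ (ρ x)) = x) (hρl : ρ (lam : E) = lam) (hph : ∀ x, φ (ph ρ lam x) = ph ρ lam (φ x)) {x y : OctL E a b c} (hy0 : y ≠ 0)
    (hx : omap ρ x = x) (hy : omap ρ y = y) {D : Matrix (Fin 3) (Fin 3) E}
    (hD : ∀ r, φ (pt x r) = pt y (r ᵥ* D)) : InD0 ρ lam D := by
  have key : ∀ r : Fin 3 → E, (![(lam : E) * ρ (r 2), ρ (r 0), ρ (r 1)] : Fin 3 → E) ᵥ* D =
      ![(lam : E) * ρ ((r ᵥ* D) 2), ρ ((r ᵥ* D) 0), ρ ((r ᵥ* D) 1)] := by
    intro r
    apply pt_inj hy0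
    rw [← ph_pt hy, ← hD, ← hD, ← ph_pt hx, hph]
  have hl := lam.ne_zero
  have k0 := key ![1, 0, 0]
  have k1 := key ![0, 1, 0]
  have k2 := key ![0, 0, 1]
  have e0 := fun i => congrFun k0 i
  have e1 := fun i => congrFun k1 i
  have e2 := fun i => congrFun k2 i
  have a0 := e0 0
  have a1 := e0 1
  have a2 := e0 2
  have b0 := e1 0
  have b1 := e1 1
  have b2 := e1 2
  have c0 := e2 0
  have c1 := e2 1
  have c2 := e2 2
  simp only [Matrix.vecMul, dotProduct, Fin.sum_univ_three, Matrix.cons_val_zero,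
    Matrix.cons_val_one, Matrix.cons_val, map_zero, map_one, zero_mul, mul_zero, mul_one, one_mul,
    add_zero, zero_add] at a0 a1 a2 b0 b1 b2 c0 c1 c2
  rw [InD0]
  ext i j
  fin_cases i <;> fin_cases j <;>
    simp [um, Matrix.mul_apply, Fin.sum_univ_three, a0, a1, a2, b0, b1, b2, hρl, hρ3]
  all_goals field_simp

/-- The matrix of an isometry is unitary. -/
theorem unitary_of (h3 : ∀ x y, her σ g (φ x) (φ y) = her σ g x y) {x y : OctL E a b c} {t t' : E}
    (hx : bil x (omap σ x) = t) (hy : bil y (omap σ y) = t') {D : Matrix (Fin 3) (Fin 3) E}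
    (hD : ∀ r, φ (pt x r) = pt y (r ᵥ* D)) :
    t' • (D * Matrix.diagonal (ww g) * (D.map σ)ᵀ) = t • Matrix.diagonal (ww g) := by
  have hp : ∀ (z : OctL E a b c) (r s : Fin 3 → E), her σ g (pt z r) (pt z s) =
      (ww g 0 * r 0 * σ (s 0) + ww g 1 * r 1 * σ (s 1) + ww g 2 * r 2 * σ (s 2)) *
        bil z (omap σ z) := by
    intro z r s
    rw [her_pt]
    simp only [pt, omap_smul, bil_smul_right]
    ring
  have key : ∀ i j, her σ g (pt y ((Pi.single i 1 : Fin 3 → E) ᵥ* D))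
      (pt y ((Pi.single j 1 : Fin 3 → E) ᵥ* D)) =
      her σ g (pt x (Pi.single i 1)) (pt x (Pi.single j 1)) := by
    intro i j
    rw [← hD, ← hD, h3]
  ext1 i j
  have h := key i j
  rw [hp, hp, hx, hy, Matrix.single_one_vecMul, Matrix.single_one_vecMul] at h
  simp only [Matrix.row_apply] at h
  rw [Matrix.smul_apply, Matrix.smul_apply, Matrix.mul_apply, Fin.sum_univ_three]
  simp only [Matrix.mul_diagonal, Matrix.transpose_apply, Matrix.map_apply, smul_eq_mul]
  have h4 : (ww g 0 * (Pi.single i 1 : Fin 3 → E) 0 * σ ((Pi.single j 1 : Fin 3 → E) 0) +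
      ww g 1 * (Pi.single i 1 : Fin 3 → E) 1 * σ ((Pi.single j 1 : Fin 3 → E) 1) +
      ww g 2 * (Pi.single i 1 : Fin 3 → E) 2 * σ ((Pi.single j 1 : Fin 3 → E) 2)) =
      Matrix.diagonal (ww g) i j := by
    fin_cases i <;> fin_cases j <;> simp
  rw [h4] at h
  linear_combination h

theorem unitary_iff {D : Matrix (Fin 3) (Fin 3) E}
    (h : D * Matrix.diagonal (ww g) * (D.map σ)ᵀ = Matrix.diagonal (ww g)) :
    (D.map σ)ᵀ * Matrix.diagonal (fun i => (g i : E)) * D =
      Matrix.diagonal (fun i => (g i : E)) := by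
  have h0 := (g 0).ne_zero
  have h1 := (g 1).ne_zero
  have h2 := (g 2).ne_zero
  have hG : (Matrix.diagonal (fun i => (g i : E)) : Matrix (Fin 3) (Fin 3) E) *
      Matrix.diagonal (fun i => (g i : E)⁻¹) = 1 := by
    rw [Matrix.diagonal_mul_diagonal]
    rw [← Matrix.diagonal_one]
    congr 1
    funext i
    exact mul_inv_cancel₀ (g i).ne_zero
  have hG' : (Matrix.diagonal (fun i => (g i : E)⁻¹) : Matrix (Fin 3) (Fin 3) E) *
      Matrix.diagonal (fun i => (g i : E)) = 1 := by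
    rw [Matrix.diagonal_mul_diagonal]
    rw [← Matrix.diagonal_one]
    congr 1
    funext i
    exact inv_mul_cancel₀ (g i).ne_zero
  have hW : (Matrix.diagonal (ww g) : Matrix (Fin 3) (Fin 3) E) =
      ((g 0 : E) * g 1 * g 2) • Matrix.diagonal (fun i => (g i : E)⁻¹) := by
    rw [← Matrix.diagonal_smul]
    congr 1
    funext i
    fin_cases i <;> simp [ww] <;> field_simp
  have hg : (g 0 : E) * g 1 * g 2 ≠ 0 := mul_ne_zero (mul_ne_zero h0 h1) h2
  rw [hW, Matrix.mul_smul, Matrix.smul_mul] at h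
  have h4 : D * Matrix.diagonal (fun i => (g i : E)⁻¹) * (D.map σ)ᵀ =
      Matrix.diagonal (fun i => (g i : E)⁻¹) := smul_right_injective _ hg h
  have h5 : D * (Matrix.diagonal (fun i => (g i : E)⁻¹) * (D.map σ)ᵀ *
      Matrix.diagonal (fun i => (g i : E))) = 1 := by
    rw [← Matrix.mul_assoc, ← Matrix.mul_assoc, h4, hG']
  have h6 := mul_eq_one_comm.1 h5
  calc (D.map σ)ᵀ * Matrix.diagonal (fun i => (g i : E)) * D
      = (Matrix.diagonal (fun i => (g i : E)) * Matrix.diagonal (fun i => (g i : E)⁻¹)) *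
        ((D.map σ)ᵀ * Matrix.diagonal (fun i => (g i : E)) * D) := by rw [hG, Matrix.one_mul]
    _ = Matrix.diagonal (fun i => (g i : E)) * (Matrix.diagonal (fun i => (g i : E)⁻¹) *
        (D.map σ)ᵀ * Matrix.diagonal (fun i => (g i : E)) * D) := by
        simp only [Matrix.mul_assoc]
    _ = Matrix.diagonal (fun i => (g i : E)) := by rw [h6, Matrix.mul_one]

variable [NeZero (2 : E)]

omit [NeZero (2 : E)] in
theorem mat_pt (x : Qt (up E a) (up E b)) (r : Fin 3 → E) :
    Alb.mat (pt (⟨0, x⟩ : OctL E a b c) r) = 0 := by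
  have h0 : algebraMap E (Qt (up E a) (up E b)) 0 = 0 := map_zero _
  ext1 i j
  fin_cases i <;> fin_cases j
  · exact h0
  · change r 2 • (0 : Qt (up E a) (up E b)) = 0
    exact smul_zero _
  · change star (r 1 • (0 : Qt (up E a) (up E b))) = 0
    rw [smul_zero, star_zero]
  · change star (r 2 • (0 : Qt (up E a) (up E b))) = 0
    rw [smul_zero, star_zero]
  · exact h0
  · change r 0 • (0 : Qt (up E a) (up E b)) = 0
    exact smul_zero _
  · change r 1 • (0 : Qt (up E a) (up E b)) = 0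
    exact smul_zero _
  · change star (r 0 • (0 : Qt (up E a) (up E b))) = 0
    rw [smul_zero, star_zero]
  · exact h0

/-- The action of `z e₊ + t e₋` on the two points. -/
theorem act_pt (hal : al ^ 2 = algebraMap k E a) {m : (MQ E a b)ˣ}
    {z t : Matrix (Fin 3) (Fin 3) E} (hm : ((m⁻¹ : (MQ E a b)ˣ) : MQ E a b) = mq al z t)
    (r : Fin 3 → E) :
    Alb.act m 1 (pt (xp al) r : AlbL E a b c) = pt (xp al) (r ᵥ* z) ∧
      Alb.act m 1 (pt (xm al) r : AlbL E a b c) = pt (xm al) (r ᵥ* t) := by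
  have key : ∀ (u v : E) (f : Fin 3 → E), Alb.act m 1 (pt (⟨0, qe al u v⟩ : OctL E a b c) r) =
      ⟨0, 0, 0, ⟨0, qe al (u * (r ᵥ* z) 0) (v * (r ᵥ* t) 0)⟩,
        ⟨0, qe al (u * (r ᵥ* z) 1) (v * (r ᵥ* t) 1)⟩,
        ⟨0, qe al (u * (r ᵥ* z) 2) (v * (r ᵥ* t) 2)⟩⟩ := by
    intro u v _
    have hv : ∀ i, Matrix.vecMul (Alb.vec (pt (⟨0, qe al u v⟩ : OctL E a b c) r))
        (mq al z t : MQ E a b) i = qe al (u * (r ᵥ* z) i) (v * (r ᵥ* t) i) := by
      intro i
      have e : ∀ j, Alb.vec (pt (⟨0, qe al u v⟩ : OctL E a b c) r) j = qe al (r j * u) (r j * v) := by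
        intro j
        fin_cases j <;> exact qe_smul _ _ _
      rw [Matrix.vecMul, dotProduct, Fin.sum_univ_three, e, e, e]
      simp only [mq_apply, qe_mul hal, qe_add, Matrix.vecMul, dotProduct, Fin.sum_univ_three]
      congr 1 <;> ring
    unfold Alb.act
    rw [hm, mat_pt, Matrix.mul_zero, Matrix.zero_mul]
    simp only [one_mul, hv]
    rfl
  constructor
  · have h := key 1 0 r
    have e1 : (⟨0, qe al 1 0⟩ : OctL E a b c) = xp al := by rw [xp, ep_eq]
    rw [e1] at h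
    rw [h]
    apply Alb.ext
    · rfl
    · rfl
    · rfl
    all_goals
      rw [xp, ep_eq]
      simp only [pt]
      ext1
      · exact (smul_zero _).symm
      · rw [snd_smul, qe_smul]
        simp only [one_mul, mul_one, zero_mul, mul_zero]
  · have h := key 0 1 r
    have e1 : (⟨0, qe al 0 1⟩ : OctL E a b c) = xm al := by rw [xm, em_eq]
    rw [e1] at h
    rw [h]
    apply Alb.ext
    · rfl
    · rfl
    · rfl
    all_goals
      rw [xm, em_eq]
      simp only [pt]
      ext1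
      · exact (smul_zero _).symm
      · rw [snd_smul, qe_smul]
        simp only [one_mul, mul_one, zero_mul, mul_zero]

end Vale.Agent.P011.E6O.H408
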