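import Vale.Agent.P011.E6O.Defs
import Vale.Agent.P011.E6.HitF2

/-!
The product of the space of hermitian matrices which is preserved by the group, and the points of
the form `(0, 0, 0; r₁ x, r₂ x, r₃ x)`.
-/

open Matrix

namespace Vale.Agent.P011.E6O.H408

open Vale.Agent.P011.MPQ Vale.Agent.P011.D4 Vale.Agent.P011.D4.Oct Vale.Agent.P011.E6
open Vale.Agent.P011.E6.Alb
open Vale.Agent.P011.E6I (MQ toMQ)

variable {k E : Type} [Field k] [Field E] [Algebra k E]
  {ρ σ : E ≃ₐ[k] E} {lam : Eˣ} {g : Fin 3 → Eˣ} {a b c : kˣ} {al : E}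

/-- The product of the space. -/
def sp (σ : E ≃ₐ[k] E) (g : Fin 3 → Eˣ) (x y : AlbL E a b c) : AlbL E a b c :=
  amap σ (wt g⁻¹ (cross x y))

theorem wt_inj {x y : AlbL E a b c} (h : wt g x = wt g y) : x = y := by
  rw [← wt_inv_wt g x, h, wt_inv_wt]

theorem her_eq (x y : AlbL E a b c) : her σ g x y = tf x (wt g (amap σ y)) := by
  rw [her, tf_wt]

theorem map_sp [NeZero (2 : E)] (hσ : ∀ x, σ (σ x) = x) {φ : AlbL E a b c ≃ₗ[E] AlbL E a b c}
    (h1 : ∀ x, cub (φ x) = cub x) (h3 : ∀ x y, her σ g (φ x) (φ y) = her σ g x y)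
    (x y : AlbL E a b c) : φ (sp σ g x y) = sp σ g (φ x) (φ y) := by
  have h : wt g (amap σ (φ (sp σ g x y))) = cross (φ x) (φ y) := by
    apply eq_of_tf
    intro z
    obtain ⟨w, rfl⟩ := φ.surjective z
    rw [tf_comm, ← her_eq, h3, her_eq, sp, amap_amap σ hσ, wt_wt_inv, tf_comm, tf_cross_map h1]
  conv_rhs => rw [sp, ← h, wt_inv_wt, amap_amap σ hσ]

theorem amap_inj (hσ : ∀ x, σ (σ x) = x) {x y : AlbL E a b c} (h : amap σ x = amap σ y) :
    x = y := by
  rw [← amap_amap σ hσ x, h, amap_amap σ hσ]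

theorem sp_eq_zero (hσ : ∀ x, σ (σ x) = x) {x y : AlbL E a b c} :
    sp σ g x y = 0 ↔ cross x y = 0 := by
  constructor
  · intro h
    have h1 : wt g⁻¹ (cross x y) = 0 := amap_inj hσ (by
      rw [amap_zero]
      exact h)
    apply wt_inj (g := g⁻¹)
    rw [h1]
    symm
    have := wt_smul (g⁻¹) (0 : E) (0 : AlbL E a b c)
    rwa [zero_smul, zero_smul] at this
  · intro h
    rw [sp, h]
    have h1 : wt g⁻¹ (0 : AlbL E a b c) = 0 := by
      have := wt_smul (g⁻¹) (0 : E) (0 : AlbL E a b c)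
      rwa [zero_smul, zero_smul] at this
    rw [h1, amap_zero]

/-- The elements of a point. -/
def pt (x : OctL E a b c) (r : Fin 3 → E) : AlbL E a b c := ⟨0, 0, 0, r 0 • x, r 1 • x, r 2 • x⟩

theorem pt_add (x : OctL E a b c) (r s : Fin 3 → E) : pt x (r + s) = pt x r + pt x s := by
  ext1 <;> simp [pt, add_smul]

theorem pt_smul (x : OctL E a b c) (t : E) (r : Fin 3 → E) : pt x (t • r) = t • pt x r := by
  ext1 <;> simp [pt, mul_smul]

/-- The point, as a linear map. -/
def ptL (x : OctL E a b c) : (Fin 3 → E) →ₗ[E] AlbL E a b c where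
  toFun := pt x
  map_add' := pt_add x
  map_smul' := pt_smul x

/-- The octonion `e₊ l`. -/
def xp (al : E) : OctL E a b c := ⟨0, ep al⟩

/-- The octonion `e₋ l`. -/
def xm (al : E) : OctL E a b c := ⟨0, em al⟩

theorem pt_inj {x : OctL E a b c} (hx : x ≠ 0) {r s : Fin 3 → E} (h : pt x r = pt x s) :
    r = s := by
  have h0 : r 0 • x = s 0 • x := congrArg x1 h
  have h1 : r 1 • x = s 1 • x := congrArg x2 h
  have h2 : r 2 • x = s 2 • x := congrArg x3 h
  have key : ∀ u v : E, u • x = v • x → u = v := by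
    intro u v huv
    by_contra hne
    apply hx
    have h3 : (u - v) • x = 0 := by rw [sub_smul, huv, sub_self]
    exact (smul_eq_zero.1 h3).resolve_left (sub_ne_zero.2 hne)
  funext i
  fin_cases i
  · exact key _ _ h0
  · exact key _ _ h1
  · exact key _ _ h2

end Vale.Agent.P011.E6O.H408
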