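import Vale.Agent.P011.E6O.H408.Sp
import Vale.Agent.P011.E6O.H493.Co

/-!
The subspaces attached to a standard point.
-/

open Matrix

set_option linter.unusedSimpArgs false

namespace Vale.Agent.P011.E6O.H408

open Vale.Agent.P011.MPQ Vale.Agent.P011.D4 Vale.Agent.P011.D4.Oct Vale.Agent.P011.E6
open Vale.Agent.P011.E6.Alb
open Vale.Agent.P011.E6I (MQ toMQ)

section gen

variable {F : Type} [Field F] {a b c : Fˣ} {al : F}

theorem bil_co (hal : al ^ 2 = a) (x y : Oct a b c) : bil x y =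
    (ca al x.fst * cb al y.fst + cb al x.fst * ca al y.fst -
      b * (cg al x.fst * cd al y.fst + cd al x.fst * cg al y.fst)) -
    c * (ca al x.snd * cb al y.snd + cb al x.snd * ca al y.snd -
      b * (cg al x.snd * cd al y.snd + cd al x.snd * cg al y.snd)) := by
  rw [bil_eq]
  simp only [ca, cb, cg, cd]
  linear_combination (2 * (x.fst.imI * y.fst.imI - b * (x.fst.imK * y.fst.imK)) -
    c * (2 * (x.snd.imI * y.snd.imI - b * (x.snd.imK * y.snd.imK)))) * hal

theorem ext_oct (h2 : (2 : F) ≠ 0) (hal : al ^ 2 = a) {x y : Oct a b c}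
    (h1 : ca al x.fst = ca al y.fst) (h3 : cb al x.fst = cb al y.fst)
    (h4 : cg al x.fst = cg al y.fst) (h5 : cd al x.fst = cd al y.fst)
    (h6 : ca al x.snd = ca al y.snd) (h7 : cb al x.snd = cb al y.snd)
    (h8 : cg al x.snd = cg al y.snd) (h9 : cd al x.snd = cd al y.snd) : x = y := by
  ext1
  · exact ext_co h2 hal h1 h3 h4 h5
  · exact ext_co h2 hal h6 h7 h8 h9

end gen

variable {k E : Type} [Field k] [Field E] [Algebra k E]
  {ρ σ : E ≃ₐ[k] E} {lam : Eˣ} {g : Fin 3 → Eˣ} {a b c : kˣ} {al : E}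

theorem ca_σ (h : σ al = -al) (q : Qt (up E a) (up E b)) : ca al (qmap σ q) = σ (cb al q) := by
  simp only [ca, cb, re_qmap, imI_qmap, map_sub, map_mul, h]
  ring

theorem cb_σ (h : σ al = -al) (q : Qt (up E a) (up E b)) : cb al (qmap σ q) = σ (ca al q) := by
  simp only [ca, cb, re_qmap, imI_qmap, map_add, map_mul, h]
  ring

theorem cg_σ (h : σ al = -al) (q : Qt (up E a) (up E b)) : cg al (qmap σ q) = σ (cd al q) := by
  simp only [cg, cd, imJ_qmap, imK_qmap, map_sub, map_mul, h]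
  ring

theorem cd_σ (h : σ al = -al) (q : Qt (up E a) (up E b)) : cd al (qmap σ q) = σ (cg al q) := by
  simp only [cg, cd, imJ_qmap, imK_qmap, map_add, map_mul, h]
  ring

variable [NeZero (2 : E)]

theorem co_ep (hal : al ^ 2 = algebraMap k E a) :
    ca al (ep al : Qt (up E a) (up E b)) = 1 ∧ cb al (ep al : Qt (up E a) (up E b)) = 0 ∧
      cg al (ep al : Qt (up E a) (up E b)) = 0 ∧ cd al (ep al : Qt (up E a) (up E b)) = 0 := by
  have h := mkq_co (a := up E a) (b := up E b) two_ne_zero (show al ^ 2 = (up E a : Eˣ) from hal)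
    1 0 0 0
  have e : (ep al : Qt (up E a) (up E b)) = mkq (up E a) (up E b) al 1 0 0 0 := by
    apply QuaternionAlgebra.ext <;> simp [ep, mkq]
  rw [e]
  exact h

theorem co_em (hal : al ^ 2 = algebraMap k E a) :
    ca al (em al : Qt (up E a) (up E b)) = 0 ∧ cb al (em al : Qt (up E a) (up E b)) = 1 ∧
      cg al (em al : Qt (up E a) (up E b)) = 0 ∧ cd al (em al : Qt (up E a) (up E b)) = 0 := by
  have h := mkq_co (a := up E a) (b := up E b) two_ne_zero (show al ^ 2 = (up E a : Eˣ) from hal)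
    0 1 0 0
  have e : (em al : Qt (up E a) (up E b)) = mkq (up E a) (up E b) al 0 1 0 0 := by
    apply QuaternionAlgebra.ext <;> simp [em, mkq, neg_div]
  rw [e]
  exact h

omit [NeZero (2 : E)] in
theorem qmap_ep (h : σ al = -al) : qmap σ (ep al : Qt (up E a) (up E b)) = em al := by
  apply QuaternionAlgebra.ext
  · change σ (1 / 2) = 1 / 2
    rw [map_div₀, map_one, map_ofNat]
  · change σ (1 / (2 * al)) = -(1 / (2 * al))
    rw [map_div₀, map_one, map_mul, map_ofNat, h, mul_neg, div_neg]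
  · exact map_zero σ
  · exact map_zero σ

omit [NeZero (2 : E)] in
theorem qmap_em (h : σ al = -al) : qmap σ (em al : Qt (up E a) (up E b)) = ep al := by
  apply QuaternionAlgebra.ext
  · change σ (1 / 2) = 1 / 2
    rw [map_div₀, map_one, map_ofNat]
  · change σ (-(1 / (2 * al))) = 1 / (2 * al)
    rw [map_neg, map_div₀, map_one, map_mul, map_ofNat, h, mul_neg, div_neg, neg_neg]
  · exact map_zero σ
  · exact map_zero σ

omit [NeZero (2 : E)] in
theorem qmap_ep' (h : ρ al = al) : qmap ρ (ep al : Qt (up E a) (up E b)) = ep al := by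
  apply QuaternionAlgebra.ext
  · change ρ (1 / 2) = 1 / 2
    rw [map_div₀, map_one, map_ofNat]
  · change ρ (1 / (2 * al)) = 1 / (2 * al)
    rw [map_div₀, map_one, map_mul, map_ofNat, h]
  · exact map_zero ρ
  · exact map_zero ρ

omit [NeZero (2 : E)] in
theorem qmap_em' (h : ρ al = al) : qmap ρ (em al : Qt (up E a) (up E b)) = em al := by
  apply QuaternionAlgebra.ext
  · change ρ (1 / 2) = 1 / 2
    rw [map_div₀, map_one, map_ofNat]
  · change ρ (-(1 / (2 * al))) = -(1 / (2 * al))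
    rw [map_neg, map_div₀, map_one, map_mul, map_ofNat, h]
  · exact map_zero ρ
  · exact map_zero ρ

omit [NeZero (2 : E)] in
theorem omap_xp (h : σ al = -al) : omap σ (xp al : OctL E a b c) = xm al := by
  ext1
  · exact qmap_zero σ
  · exact qmap_ep h

omit [NeZero (2 : E)] in
theorem omap_xm (h : σ al = -al) : omap σ (xm al : OctL E a b c) = xp al := by
  ext1
  · exact qmap_zero σ
  · exact qmap_em h

omit [NeZero (2 : E)] in
theorem omap_xp' (h : ρ al = al) : omap ρ (xp al : OctL E a b c) = xp al := by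
  ext1
  · exact qmap_zero ρ
  · exact qmap_ep' h

omit [NeZero (2 : E)] in
theorem omap_xm' (h : ρ al = al) : omap ρ (xm al : OctL E a b c) = xm al := by
  ext1
  · exact qmap_zero ρ
  · exact qmap_em' h

/-- The octonions `t e₋ j + (s e₊ j) l`. -/
structure V1o (al : E) (w : OctL E a b c) : Prop where
  h1 : ca al w.fst = 0
  h2 : cb al w.fst = 0
  h3 : cg al w.fst = 0
  h4 : ca al w.snd = 0
  h5 : cb al w.snd = 0
  h6 : cd al w.snd = 0

/-- The elements of degree one. -/
structure V1 (al : E) (y : AlbL E a b c) : Prop where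
  d1 : y.d1 = 0
  d2 : y.d2 = 0
  d3 : y.d3 = 0
  x1 : V1o al y.x1
  x2 : V1o al y.x2
  x3 : V1o al y.x3

theorem of_mul (hal : al ^ 2 = algebraMap k E a) {w : OctL E a b c} (h1 : xp al * w = 0)
    (h2 : w * xp al = 0) :
    ca al w.fst = 0 ∧ cb al w.fst = 0 ∧ cg al w.fst = 0 ∧ cb al w.snd = 0 ∧ cd al w.snd = 0 := by
  have hal' : al ^ 2 = (up E a : Eˣ) := hal
  obtain ⟨e1, e2, e3, e4⟩ := co_ep (a := a) (b := b) hal
  have hc : ((up E c : Eˣ) : E) ≠ 0 := (up E c).ne_zero
  have k1 := congrArg (fun z : OctL E a b c => cb al (star z.fst)) h1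
  have k2 := congrArg (fun z : OctL E a b c => cd al z.fst) h1
  have k3 := congrArg (fun z : OctL E a b c => ca al z.snd) h1
  have k4 := congrArg (fun z : OctL E a b c => cg al z.snd) h1
  have k5 := congrArg (fun z : OctL E a b c => ca al z.snd) h2
  simp only [xp, fst_mul, snd_mul, fst_zero, snd_zero, zero_mul, mul_zero, zero_add, add_zero,
    ca_mul hal', cb_mul hal', cg_mul hal', cd_mul hal', ca_smul, cb_smul, cg_smul, cd_smul,
    ca_star, cb_star, cg_star, cd_star, e1, e2, e3, e4, ca_zero, cb_zero, cg_zero, cd_zero,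
    star_zero, one_mul, mul_one, mul_neg, neg_zero, add_zero, neg_eq_zero] at k1 k2 k3 k4 k5
  refine ⟨k5, k3, k4, ?_, ?_⟩
  · exact (mul_eq_zero.1 k1).resolve_left hc
  · exact (mul_eq_zero.1 k2).resolve_left hc

/-- The weights of the three octonion entries. -/
def ww (g : Fin 3 → Eˣ) (i : Fin 3) : E := ![(g 1 : E) * g 2, (g 2 : E) * g 0, (g 0 : E) * g 1] i

omit [NeZero (2 : E)] in
theorem ww_ne (i : Fin 3) : ww g i ≠ 0 := by
  fin_cases i
  · exact mul_ne_zero (g 1).ne_zero (g 2).ne_zero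
  · exact mul_ne_zero (g 2).ne_zero (g 0).ne_zero
  · exact mul_ne_zero (g 0).ne_zero (g 1).ne_zero

omit [NeZero (2 : E)] in
theorem her_pt (x : OctL E a b c) (r : Fin 3 → E) (y : AlbL E a b c) :
    her σ g (pt x r) y = ww g 0 * r 0 * bil x (omap σ y.x1) +
      ww g 1 * r 1 * bil x (omap σ y.x2) + ww g 2 * r 2 * bil x (omap σ y.x3) := by
  simp only [her, tf, wt, pt, amap, mul_zero, zero_mul, zero_add, bil_smul_left, ww,
    Matrix.cons_val_zero, Matrix.cons_val_one, Matrix.cons_val]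
  ring

theorem xp_ne (hal : al ^ 2 = algebraMap k E a) : (xp al : OctL E a b c) ≠ 0 := by
  intro h
  have h1 := (co_ep (a := a) (b := b) hal).1
  have h2 : (ep al : Qt (up E a) (up E b)) = 0 := congrArg Oct.snd h
  rw [h2, ca_zero] at h1
  exact one_ne_zero h1.symm

theorem xm_ne (hal : al ^ 2 = algebraMap k E a) : (xm al : OctL E a b c) ≠ 0 := by
  intro h
  have h1 := (co_em (a := a) (b := b) hal).2.1
  have h2 : (em al : Qt (up E a) (up E b)) = 0 := congrArg Oct.snd h
  rw [h2, cb_zero] at h1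
  exact one_ne_zero h1.symm

theorem V1_of (hal : al ^ 2 = algebraMap k E a) (hσ : σ al = -al) {y : AlbL E a b c}
    (h1 : ∀ r, cross (pt (xp al) r) y = 0) (h2 : ∀ r, her σ g (pt (xp al) r) y = 0) :
    V1 al y := by
  have hal' : al ^ 2 = (up E a : Eˣ) := hal
  obtain ⟨e1, e2, e3, e4⟩ := co_ep (a := a) (b := b) hal
  have hc : ((up E c : Eˣ) : E) ≠ 0 := (up E c).ne_zero
  have hx0 := xp_ne (b := b) (c := c) hal
  have k0 := h1 ![1, 0, 0]
  have k1 := h1 ![0, 1, 0]
  have k2 := h1 ![0, 0, 1]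
  have st : ∀ z : OctL E a b c, star z = 0 → z = 0 := fun z hz => by
    rw [← star_star z, hz, star_zero]
  have a1 := congrArg Alb.x1 k0
  have a2 := congrArg Alb.x2 k0
  have a3 := congrArg Alb.x3 k0
  have b1 := congrArg Alb.x1 k1
  have b2 := congrArg Alb.x2 k1
  have b3 := congrArg Alb.x3 k1
  have c1 := congrArg Alb.x1 k2
  have c2 := congrArg Alb.x2 k2
  have c3 := congrArg Alb.x3 k2
  simp only [cross, pt, Matrix.cons_val_zero, Matrix.cons_val_one, Matrix.cons_val, zero_smul,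
    one_smul, zero_mul, mul_zero, add_zero, zero_add, star_zero, zero_sub, sub_zero, neg_eq_zero,
    smul_zero, x1_zero, x2_zero, x3_zero] at a1 a2 a3 b1 b2 b3 c1 c2 c3
  have p1 := of_mul hal (st _ c2) (st _ b3)
  have p2 := of_mul hal (st _ a3) (st _ c1)
  have p3 := of_mul hal (st _ b1) (st _ a2)
  have hb : ∀ w : OctL E a b c, bil (xp al) (omap σ w) = -((up E c : Eˣ) * σ (ca al w.snd)) := by
    intro w
    rw [bil_co hal']
    simp only [xp, omap, ca_zero, cb_zero, cg_zero, cd_zero, e1, e2, e3, e4, cb_σ hσ]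
    ring
  have q1 := h2 ![1, 0, 0]
  have q2 := h2 ![0, 1, 0]
  have q3 := h2 ![0, 0, 1]
  simp only [her_pt, hb, Matrix.cons_val_zero, Matrix.cons_val_one, Matrix.cons_val, mul_zero,
    zero_mul, add_zero, zero_add, mul_one] at q1 q2 q3
  have fin : ∀ (i : Fin 3) (t : E), ww g i * -((up E c : Eˣ) * σ t) = 0 → t = 0 := by
    intro i t ht
    have h3 := (mul_eq_zero.1 ht).resolve_left (ww_ne i)
    rw [neg_eq_zero] at h3
    have h4 := (mul_eq_zero.1 h3).resolve_left hc
    exact (map_eq_zero σ).1 h4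
  exact ⟨(smul_eq_zero.1 a1).resolve_right hx0, (smul_eq_zero.1 b2).resolve_right hx0,
    (smul_eq_zero.1 c3).resolve_right hx0,
    ⟨p1.1, p1.2.1, p1.2.2.1, fin 0 _ q1, p1.2.2.2.1, p1.2.2.2.2⟩,
    ⟨p2.1, p2.2.1, p2.2.2.1, fin 1 _ q2, p2.2.2.2.1, p2.2.2.2.2⟩,
    ⟨p3.1, p3.2.1, p3.2.2.1, fin 2 _ q3, p3.2.2.2.1, p3.2.2.2.2⟩⟩

end Vale.Agent.P011.E6O.H408
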