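import Vale.Agent.P011.E6O.H408.Vs

/-!
The opposite point is preserved by the stabilizer of a point.
-/

open Matrix

set_option linter.unusedSimpArgs false

namespace Vale.Agent.P011.E6O.H408

open Vale.Agent.P011.MPQ Vale.Agent.P011.D4 Vale.Agent.P011.D4.Oct Vale.Agent.P011.E6
open Vale.Agent.P011.E6.Alb
open Vale.Agent.P011.E6I (MQ toMQ)

variable {k E : Type} [Field k] [Field E] [Algebra k E] [NeZero (2 : E)]
  {ρ σ : E ≃ₐ[k] E} {lam : Eˣ} {g : Fin 3 → Eˣ} {a b c : kˣ} {al : E}

omit [NeZero (2 : E)] in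
theorem star_xp : star (xp al : OctL E a b c) = -xp al := by
  ext1
  · exact star_zero _ |>.trans neg_zero.symm
  · rfl

omit [NeZero (2 : E)] in
theorem star_xm : star (xm al : OctL E a b c) = -xm al := by
  ext1
  · exact star_zero _ |>.trans neg_zero.symm
  · rfl

theorem V1o.xp_mul (hal : al ^ 2 = algebraMap k E a) {w : OctL E a b c} (h : V1o al w) :
    xp al * w = 0 := by
  have hal' : al ^ 2 = (up E a : Eˣ) := hal
  obtain ⟨e1, e2, e3, e4⟩ := co_ep (a := a) (b := b) hal
  obtain ⟨h1, h2, h3, h4, h5, h6⟩ := h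
  apply ext_oct (two_ne_zero) hal'
  all_goals
    simp only [xp, fst_mul, snd_mul, fst_zero, snd_zero, zero_mul, mul_zero, zero_add, add_zero,
      ca_mul hal', cb_mul hal', cg_mul hal', cd_mul hal', ca_smul, cb_smul, cg_smul, cd_smul,
      ca_star, cb_star, cg_star, cd_star, e1, e2, e3, e4, ca_zero, cb_zero, cg_zero, cd_zero,
      star_zero, one_mul, mul_one, mul_neg, neg_zero, add_zero, h1, h2, h3, h4, h5, h6]

theorem V1o.mul_xp (hal : al ^ 2 = algebraMap k E a) {w : OctL E a b c} (h : V1o al w) :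
    w * xp al = 0 := by
  have hal' : al ^ 2 = (up E a : Eˣ) := hal
  obtain ⟨e1, e2, e3, e4⟩ := co_ep (a := a) (b := b) hal
  obtain ⟨h1, h2, h3, h4, h5, h6⟩ := h
  apply ext_oct (two_ne_zero) hal'
  all_goals
    simp only [xp, fst_mul, snd_mul, fst_zero, snd_zero, zero_mul, mul_zero, zero_add, add_zero,
      ca_mul hal', cb_mul hal', cg_mul hal', cd_mul hal', ca_smul, cb_smul, cg_smul, cd_smul,
      ca_star, cb_star, cg_star, cd_star, e1, e2, e3, e4, ca_zero, cb_zero, cg_zero, cd_zero,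
      star_zero, one_mul, mul_one, mul_neg, neg_zero, add_zero, h1, h2, h3, h4, h5, h6]

theorem V1o.bil_xp (hal : al ^ 2 = algebraMap k E a) {w : OctL E a b c} (h : V1o al w) :
    bil (xp al) w = 0 := by
  have hal' : al ^ 2 = (up E a : Eˣ) := hal
  obtain ⟨e1, e2, e3, e4⟩ := co_ep (a := a) (b := b) hal
  obtain ⟨h1, h2, h3, h4, h5, h6⟩ := h
  rw [bil_co hal']
  simp only [xp, fst_mul, snd_mul, fst_zero, snd_zero, zero_mul, mul_zero, zero_add, add_zero,
      e1, e2, e3, e4, ca_zero, cb_zero, cg_zero, cd_zero, sub_zero,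
      star_zero, one_mul, mul_one, mul_neg, neg_zero, add_zero, h1, h2, h3, h4, h5, h6]

theorem V1o.bil_σ (hal : al ^ 2 = algebraMap k E a) (hσ : σ al = -al) {w : OctL E a b c}
    (h : V1o al w) : bil (xp al) (omap σ w) = 0 := by
  have hal' : al ^ 2 = (up E a : Eˣ) := hal
  obtain ⟨e1, e2, e3, e4⟩ := co_ep (a := a) (b := b) hal
  obtain ⟨h1, h2, h3, h4, h5, h6⟩ := h
  rw [bil_co hal']
  simp only [xp, omap, ca_zero, cb_zero, cg_zero, cd_zero, e1, e2, e3, e4, cb_σ hσ, h4, map_zero,
    mul_zero, zero_mul, sub_zero, add_zero]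

omit [NeZero (2 : E)] in
theorem V1o.bil_self (hal : al ^ 2 = algebraMap k E a) {w w' : OctL E a b c} (h : V1o al w)
    (h' : V1o al w') : bil w w' = 0 := by
  have hal' : al ^ 2 = (up E a : Eˣ) := hal
  obtain ⟨h1, h2, h3, h4, h5, h6⟩ := h
  obtain ⟨k1, k2, k3, k4, k5, k6⟩ := h'
  rw [bil_co hal']
  simp only [h1, h2, h3, h4, h5, h6, k1, k2, k3, k4, k5, k6,
    mul_zero, zero_mul, sub_zero, add_zero]

theorem V1o.mul_self (hal : al ^ 2 = algebraMap k E a) {w w' : OctL E a b c} (h : V1o al w)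
    (h' : V1o al w') : w * w' = (algebraMap k E b *
      (cg al w'.snd * cd al w.fst - cg al w.snd * cd al w'.fst)) • xp al := by
  have hal' : al ^ 2 = (up E a : Eˣ) := hal
  have hb' : ((up E b : Eˣ) : E) = algebraMap k E b := rfl
  obtain ⟨e1, e2, e3, e4⟩ := co_ep (a := a) (b := b) hal
  obtain ⟨h1, h2, h3, h4, h5, h6⟩ := h
  obtain ⟨k1, k2, k3, k4, k5, k6⟩ := h'
  apply ext_oct (two_ne_zero) hal'
  all_goals
    simp only [xp, fst_mul, snd_mul, fst_zero, snd_zero, fst_smul, snd_smul, zero_mul, mul_zero,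
      zero_add, add_zero, ca_add, cb_add, cg_add, cd_add,
      ca_mul hal', cb_mul hal', cg_mul hal', cd_mul hal', ca_smul, cb_smul, cg_smul, cd_smul,
      ca_star, cb_star, cg_star, cd_star, e1, e2, e3, e4, ca_zero, cb_zero, cg_zero, cd_zero,
      star_zero, one_mul, mul_one, mul_neg, neg_zero, add_zero, h1, h2, h3, h4, h5, h6,
      k1, k2, k3, k4, k5, k6]
  rw [hb']
  ring

theorem V1.cross_pt (hal : al ^ 2 = algebraMap k E a) {y : AlbL E a b c} (h : V1 al y)
    (r : Fin 3 → E) : cross (pt (xp al) r) y = 0 := by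
  obtain ⟨h1, h2, h3, k1, k2, k3⟩ := h
  apply Alb.ext
  · simp only [cross, pt, h1, h2, h3, mul_zero, zero_mul, add_zero, bil_smul_left,
      k1.bil_xp hal, sub_zero, d1_zero]
  · simp only [cross, pt, h1, h2, h3, mul_zero, zero_mul, add_zero, bil_smul_left,
      k2.bil_xp hal, sub_zero, d2_zero]
  · simp only [cross, pt, h1, h2, h3, mul_zero, zero_mul, add_zero, bil_smul_left,
      k3.bil_xp hal, sub_zero, d3_zero]
  all_goals
    simp only [cross, pt, h1, h2, h3, smul_mul_oct, mul_smul_oct, k1.xp_mul hal, k2.xp_mul hal,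
      k3.xp_mul hal, k1.mul_xp hal, k2.mul_xp hal, k3.mul_xp hal, smul_zero, zero_smul, add_zero,
      star_zero, sub_zero, x1_zero, x2_zero, x3_zero]

theorem V1.her_pt (hal : al ^ 2 = algebraMap k E a) (hσ : σ al = -al) {y : AlbL E a b c}
    (h : V1 al y) (r : Fin 3 → E) : her σ g (pt (xp al) r) y = 0 := by
  rw [H408.her_pt, h.x1.bil_σ hal hσ, h.x2.bil_σ hal hσ, h.x3.bil_σ hal hσ]
  simp only [mul_zero, add_zero]

/-- The coefficients of the product of two elements of degree one. -/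
def cf (al : E) (y z : AlbL E a b c) : Fin 3 → E :=
  ![-(algebraMap k E b * (cg al z.x3.snd * cd al y.x2.fst - cg al y.x2.snd * cd al z.x3.fst) +
      algebraMap k E b * (cg al y.x3.snd * cd al z.x2.fst - cg al z.x2.snd * cd al y.x3.fst)),
    -(algebraMap k E b * (cg al z.x1.snd * cd al y.x3.fst - cg al y.x3.snd * cd al z.x1.fst) +
      algebraMap k E b * (cg al y.x1.snd * cd al z.x3.fst - cg al z.x3.snd * cd al y.x1.fst)),
    -(algebraMap k E b * (cg al z.x2.snd * cd al y.x1.fst - cg al y.x1.snd * cd al z.x2.fst) +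
      algebraMap k E b * (cg al y.x2.snd * cd al z.x1.fst - cg al z.x1.snd * cd al y.x2.fst))]

theorem V1.cross_V1 (hal : al ^ 2 = algebraMap k E a) {y z : AlbL E a b c} (h : V1 al y)
    (h' : V1 al z) : cross y z = pt (xp al) (cf al y z) := by
  obtain ⟨h1, h2, h3, k1, k2, k3⟩ := h
  obtain ⟨h1', h2', h3', k1', k2', k3'⟩ := h'
  have st : ∀ s t : E, star (s • (xp al : OctL E a b c) + t • xp al) = (-(s + t)) • xp al := by
    intro s t
    rw [← add_smul, star_smul_oct, star_xp, smul_neg, neg_smul]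
  apply Alb.ext
  · simp only [cross, pt, h1, h2, h3, h1', h2', h3', mul_zero, zero_mul, add_zero,
      k1.bil_self hal k1', sub_zero]
  · simp only [cross, pt, h1, h2, h3, h1', h2', h3', mul_zero, zero_mul, add_zero,
      k2.bil_self hal k2', sub_zero]
  · simp only [cross, pt, h1, h2, h3, h1', h2', h3', mul_zero, zero_mul, add_zero,
      k3.bil_self hal k3', sub_zero]
  · simp only [cross, pt, h1, h2, h3, h1', h2', h3', zero_smul, add_zero, sub_zero, cf,
      Matrix.cons_val_zero, Matrix.cons_val_one, Matrix.cons_val]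
    rw [k2.mul_self hal k3', k2'.mul_self hal k3, st]
  · simp only [cross, pt, h1, h2, h3, h1', h2', h3', zero_smul, add_zero, sub_zero, cf,
      Matrix.cons_val_zero, Matrix.cons_val_one, Matrix.cons_val]
    rw [k3.mul_self hal k1', k3'.mul_self hal k1, st]
  · simp only [cross, pt, h1, h2, h3, h1', h2', h3', zero_smul, add_zero, sub_zero, cf,
      Matrix.cons_val_zero, Matrix.cons_val_one, Matrix.cons_val]
    rw [k1.mul_self hal k2', k1'.mul_self hal k2, st]

omit [NeZero (2 : E)] in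
theorem sp_of_cross (hσ : σ al = -al) {y z : AlbL E a b c} {r : Fin 3 → E}
    (h : cross y z = pt (xp al) r) :
    sp σ g y z = pt (xm al) fun i => σ ((ww g i)⁻¹ * r i) := by
  rw [sp, h]
  apply Alb.ext
  · simp [wt, amap, pt]
  · simp [wt, amap, pt]
  · simp [wt, amap, pt]
  · simp only [wt, amap, pt, omap_smul, omap_xp hσ, smul_smul, Pi.inv_apply,
      Units.val_inv_eq_inv_val, ww, Matrix.cons_val_zero, Matrix.cons_val_one, Matrix.cons_val,
      mul_inv, map_mul]
  · simp only [wt, amap, pt, omap_smul, omap_xp hσ, smul_smul, Pi.inv_apply,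
      Units.val_inv_eq_inv_val, ww, Matrix.cons_val_zero, Matrix.cons_val_one, Matrix.cons_val,
      mul_inv, map_mul]
  · simp only [wt, amap, pt, omap_smul, omap_xp hσ, smul_smul, Pi.inv_apply,
      Units.val_inv_eq_inv_val, ww, Matrix.cons_val_zero, Matrix.cons_val_one, Matrix.cons_val,
      mul_inv, map_mul]

end Vale.Agent.P011.E6O.H408
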