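import Vale.Agent.P011.E6O.H408.Vs2
import Vale.Agent.P011.E6O.H408.Mq

/-!
The action on the opposite point of the elements which fix a point.
-/

open Matrix

set_option linter.unusedSimpArgs false

namespace Vale.Agent.P011.E6O.H408

open Vale.Agent.P011.MPQ Vale.Agent.P011.D4 Vale.Agent.P011.D4.Oct Vale.Agent.P011.E6
open Vale.Agent.P011.E6.Alb
open Vale.Agent.P011.E6I (MQ toMQ)

variable {k E : Type} [Field k] [Field E] [Algebra k E] [NeZero (2 : E)]
  {ρ σ : E ≃ₐ[k] E} {lam : Eˣ} {g : Fin 3 → Eˣ} {a b c : kˣ} {al : E}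
  {φ : AlbL E a b c ≃ₗ[E] AlbL E a b c}

/-- The elements with entries in `E e₋ j`. -/
def TT (al : E) (t : Fin 3 → E) : AlbL E a b c :=
  ⟨0, 0, 0, ⟨t 0 • mkq (up E a) (up E b) al 0 0 0 1, 0⟩,
    ⟨t 1 • mkq (up E a) (up E b) al 0 0 0 1, 0⟩, ⟨t 2 • mkq (up E a) (up E b) al 0 0 0 1, 0⟩⟩

/-- The elements with entries in `(E e₊ j) l`. -/
def SS (al : E) (t : Fin 3 → E) : AlbL E a b c :=
  ⟨0, 0, 0, ⟨0, t 0 • mkq (up E a) (up E b) al 0 0 1 0⟩,
    ⟨0, t 1 • mkq (up E a) (up E b) al 0 0 1 0⟩, ⟨0, t 2 • mkq (up E a) (up E b) al 0 0 1 0⟩⟩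

theorem V1_TT (hal : al ^ 2 = algebraMap k E a) (t : Fin 3 → E) :
    V1 al (TT al t : AlbL E a b c) := by
  obtain ⟨h1, h2, h3, h4⟩ := mkq_co (a := up E a) (b := up E b) two_ne_zero
    (show al ^ 2 = (up E a : Eˣ) from hal) 0 0 0 1
  have key : ∀ s : E, V1o al
      (⟨s • mkq (up E a) (up E b) al 0 0 0 1, 0⟩ : OctL E a b c) := by
    intro s
    refine ⟨?_, ?_, ?_, ?_, ?_, ?_⟩
    · rw [ca_smul, h1, mul_zero]
    · rw [cb_smul, h2, mul_zero]
    · rw [cg_smul, h3, mul_zero]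
    · exact ca_zero al
    · exact cb_zero al
    · exact cd_zero al
  exact ⟨rfl, rfl, rfl, key _, key _, key _⟩

theorem V1_SS (hal : al ^ 2 = algebraMap k E a) (t : Fin 3 → E) :
    V1 al (SS al t : AlbL E a b c) := by
  obtain ⟨h1, h2, h3, h4⟩ := mkq_co (a := up E a) (b := up E b) two_ne_zero
    (show al ^ 2 = (up E a : Eˣ) from hal) 0 0 1 0
  have key : ∀ s : E, V1o al
      (⟨0, s • mkq (up E a) (up E b) al 0 0 1 0⟩ : OctL E a b c) := by
    intro s
    refine ⟨?_, ?_, ?_, ?_, ?_, ?_⟩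
    · exact ca_zero al
    · exact cb_zero al
    · exact cg_zero al
    · rw [ca_smul, h1, mul_zero]
    · rw [cb_smul, h2, mul_zero]
    · rw [cd_smul, h4, mul_zero]
  exact ⟨rfl, rfl, rfl, key _, key _, key _⟩

theorem cf_TS (hal : al ^ 2 = algebraMap k E a) (t s : Fin 3 → E) :
    cf al (TT al t : AlbL E a b c) (SS al s) =
      ![-(algebraMap k E b * (s 2 * t 1 - s 1 * t 2)), -(algebraMap k E b * (s 0 * t 2 - s 2 * t 0)),
        -(algebraMap k E b * (s 1 * t 0 - s 0 * t 1))] := by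
  obtain ⟨h1, h2, h3, h4⟩ := mkq_co (a := up E a) (b := up E b) two_ne_zero
    (show al ^ 2 = (up E a : Eˣ) from hal) 0 0 1 0
  obtain ⟨k1, k2, k3, k4⟩ := mkq_co (a := up E a) (b := up E b) two_ne_zero
    (show al ^ 2 = (up E a : Eˣ) from hal) 0 0 0 1
  simp only [cf, TT, SS, cg_smul, cd_smul, h1, h2, h3, h4, k1, k2, k3, k4, cg_zero, cd_zero]
  funext i
  fin_cases i <;> simp <;> ring

theorem exists_single (hal : al ^ 2 = algebraMap k E a) (i : Fin 3) :
    ∃ y z : AlbL E a b c, V1 al y ∧ V1 al z ∧ cf al y z = Pi.single i (-(algebraMap k E b)) := by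
  fin_cases i
  · refine ⟨_, _, V1_TT hal ![0, 1, 0], V1_SS hal ![0, 0, 1], ?_⟩
    rw [cf_TS hal]
    funext i
    fin_cases i <;> simp
  · refine ⟨_, _, V1_TT hal ![0, 0, 1], V1_SS hal ![1, 0, 0], ?_⟩
    rw [cf_TS hal]
    funext i
    fin_cases i <;> simp
  · refine ⟨_, _, V1_TT hal ![1, 0, 0], V1_SS hal ![0, 1, 0], ?_⟩
    rw [cf_TS hal]
    funext i
    fin_cases i <;> simp

theorem V1.map (hal : al ^ 2 = algebraMap k E a) (hσ : σ al = -al)
    (h1 : ∀ x, cub (φ x) = cub x) (h3 : ∀ x y, her σ g (φ x) (φ y) = her σ g x y)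
    (hfix : ∀ r, φ (pt (xp al) r) = pt (xp al) r) {y : AlbL E a b c} (h : V1 al y) :
    V1 al (φ y) := by
  refine V1_of (g := g) hal hσ (fun r => ?_) (fun r => ?_)
  · rw [← hfix r]
    exact cross_map_zero h1 (h.cross_pt hal r)
  · rw [← hfix r, h3]
    exact h.her_pt hal hσ r

omit [NeZero (2 : E)] in
/-- A linear map which carries a point into a point is given by a matrix. -/
theorem exists_mat {x y : OctL E a b c}
    (h : ∀ i, ∃ s, φ (pt x (Pi.single i 1)) = pt y s) :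
    ∃ D : Matrix (Fin 3) (Fin 3) E, ∀ r, φ (pt x r) = pt y (r ᵥ* D) := by
  choose D hD using h
  refine ⟨Matrix.of D, fun r => ?_⟩
  have e1 : r = ∑ i, r i • (Pi.single i 1 : Fin 3 → E) := by
    funext j
    simp [Finset.sum_apply, Pi.single_apply]
  have e2 : ∀ z : OctL E a b c, ∀ f : Fin 3 → Fin 3 → E,
      pt z (∑ i, r i • f i) = ∑ i, r i • pt z (f i) := by
    intro z f
    change ptL z _ = _
    rw [map_sum]
    exact Finset.sum_congr rfl fun i _ => map_smul _ _ _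
  have e3 : r ᵥ* Matrix.of D = ∑ i, r i • D i := by
    funext j
    simp [Matrix.vecMul, dotProduct]
  conv_lhs => rw [e1, e2, map_sum]
  rw [e3, e2]
  exact Finset.sum_congr rfl fun i _ => by rw [map_smul, hD]

/-- The opposite point is preserved. -/
theorem exists_D (hal : al ^ 2 = algebraMap k E a) (hσ : σ al = -al) (hσ2 : ∀ x, σ (σ x) = x)
    (h1 : ∀ x, cub (φ x) = cub x) (h3 : ∀ x y, her σ g (φ x) (φ y) = her σ g x y)
    (hfix : ∀ r, φ (pt (xp al) r) = pt (xp al) r) :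
    ∃ D : Matrix (Fin 3) (Fin 3) E, ∀ r, φ (pt (xm al) r) = pt (xm al) (r ᵥ* D) := by
  apply exists_mat
  intro i
  obtain ⟨y, z, hy, hz, hyz⟩ := exists_single (a := a) (b := b) (c := c) hal i
  have e1 := sp_of_cross (g := g) hσ (hy.cross_V1 hal hz)
  have e2 := sp_of_cross (g := g) hσ ((hy.map hal hσ h1 h3 hfix).cross_V1 hal
    (hz.map hal hσ h1 h3 hfix))
  rw [← map_sp hσ2 h1 h3, e1] at e2
  have hb : algebraMap k E b ≠ 0 := by
    rw [map_ne_zero]
    exact b.ne_zero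
  set v : E := σ ((ww g i)⁻¹ * -(algebraMap k E b)) with hv
  have hv0 : v ≠ 0 := by
    rw [hv, map_ne_zero]
    exact mul_ne_zero (inv_ne_zero (ww_ne i)) (neg_ne_zero.2 hb)
  have e3 : (fun j => σ ((ww g j)⁻¹ * cf al y z j)) = v • (Pi.single i 1 : Fin 3 → E) := by
    funext j
    rw [hyz, Pi.smul_apply, smul_eq_mul]
    by_cases hj : j = i
    · subst hj
      rw [Pi.single_eq_same, Pi.single_eq_same, mul_one]
    · rw [Pi.single_eq_of_ne hj, Pi.single_eq_of_ne hj, mul_zero, map_zero, mul_zero]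
  rw [e3, pt_smul, map_smul] at e2
  refine ⟨v⁻¹ • fun j => σ ((ww g j)⁻¹ * cf al (φ y) (φ z) j), ?_⟩
  rw [pt_smul, ← e2, smul_smul, inv_mul_cancel₀ hv0, one_smul]

end Vale.Agent.P011.E6O.H408
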